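import Vale.Agent.P146L.Conc
import Vale.Agent.P226.EhrhardN
import Vale.Agent.P150.Gauss

/-! Convex functions of a Gaussian vector: either the law is spread out near its bottom, or the negative
exponential moments are small.

Proof. `G r = ∫ Ph (r - F g)`, `τ r = Pinv (G r)` is concave by `Vale.Agent.P226.ehrhard_pi` (`f = r - F`;
`F` is Lipschitz for the sup metric with `L * √(card I)`; transport along `Fintype.equivFin I` with
`measurePreserving_piCongrLeft` or `mp_gm`). `P (F ≤ r) ≤ 2 G r` (`Ph_zero`) and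
`G r ≤ P (F ≤ r + l) + Ph (-l)`; fix `l = l η ≥ 0` with `Ph (-l) ≤ η / 8`.
Chernoff: `Ph v ≤ exp (c v + c ^ 2 / 2)` for `c ≥ 0`, so with `mgf_le` (`c = 1 / L`),
`G (EF - B L) ≤ η / 2 ≤ G (EF + B L)` for `B = B η`; `G` is continuous, so `G r1 = η / 2` for some
`r1 ≥ EF - B L`, and `P (F ≤ r1) ≤ η`. If `G (r1 - u - l) > η / 4` the first alternative holds with `r = r1`.
Otherwise with `q = r1 - u - l`, `w = u + l`, `κ = Pinv (η / 2) - Pinv (η / 4) > 0`, concavity gives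
`τ (q - k w) ≤ τ q - k κ ≤ -k κ`, so `P (F ≤ q - k w) ≤ 2 Ph (-k κ) ≤ 2 exp (-κ ^ 2 k ^ 2 / 2)`. With `y = q - F`,
`exp (M y) ≤ 1 + ∑ k < N, exp (M w (k + 1)) 1 {k w ≤ y} + exp (2 M y - M w N)`; integrate, use
`M w (k + 1) - κ ^ 2 k ^ 2 / 2 ≤ M w + (M w + 1) ^ 2 / (2 κ ^ 2) - k`, `∑ exp (-k) ≤ 2`, let `N → ∞`. -/

namespace Vale.Agent.P150S

open MeasureTheory ProbabilityTheory Real Finset Vale.Agent.P150

noncomputable section

open Vale.Agent.P226 Vale.Agent.P146L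

lemma Anti_cher (v : ℝ) {c : ℝ} (hc : 0 ≤ c) : Ph v ≤ exp (c * v + c ^ 2 / 2) := by
  have h := measure_le_le_exp_mul_mgf (X := id) (μ := gaussianReal 0 1) (t := -c) v
    (by linarith) (integrable_exp_mul_gaussianReal (-c))
  rw [mgf_id_gaussianReal, ← exp_add] at h
  refine le_trans h (le_of_eq ?_)
  congr 1
  simp

lemma Anti_mom {X : Type} [MeasurableSpace X] (μ : Measure X) [IsProbabilityMeasure μ]
    {Y : X → ℝ} (hY : Measurable Y) {M w κ : ℝ} (hM : 0 ≤ M) (hw : 0 < w) (hκ : 0 < κ)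
    (hi : Integrable (fun x => exp (M * Y x)) μ)
    (h : ∀ k : ℕ, μ.real {x | k * w ≤ Y x} ≤ 2 * exp (-(κ * k) ^ 2 / 2)) :
    ∫ x, exp (M * Y x) ∂μ ≤ 1 + 4 * exp (M * w + (M * w + 1) ^ 2 / (2 * κ ^ 2)) := by
  set C := exp (M * w + (M * w + 1) ^ 2 / (2 * κ ^ 2)) with hC
  have hC0 : 0 < C := exp_pos _
  have hs : ∀ k : ℕ, MeasurableSet {x | k * w ≤ Y x} := fun k => measurableSet_le measurable_const hY
  have h1 : ∀ x, ENNReal.ofReal (exp (M * Y x)) ≤ 1 + ∑' k : ℕ,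
      {x | k * w ≤ Y x}.indicator (fun _ => ENNReal.ofReal (exp (M * w * (k + 1)))) x := by
    intro x
    rcases le_total (Y x) 0 with h0 | h0
    · refine le_add_right (ENNReal.ofReal_le_one.2 (exp_le_one_iff.2 ?_))
      exact mul_nonpos_of_nonneg_of_nonpos hM h0
    · refine le_add_left (le_trans ?_ (ENNReal.le_tsum ⌊Y x / w⌋₊))
      have h2 : (⌊Y x / w⌋₊ : ℝ) * w ≤ Y x :=
        (le_div_iff₀ hw).1 (Nat.floor_le (div_nonneg h0 hw.le))
      have h3 : Y x ≤ (⌊Y x / w⌋₊ + 1 : ℝ) * w := (div_le_iff₀ hw).1 (Nat.lt_floor_add_one _).le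
      rw [Set.indicator_of_mem (show x ∈ {x' | (⌊Y x / w⌋₊ : ℝ) * w ≤ Y x'} from h2)]
      refine ENNReal.ofReal_le_ofReal (exp_le_exp.2 ?_)
      rw [mul_assoc, mul_comm w]
      exact mul_le_mul_of_nonneg_left h3 hM
  have h2 : ∀ k : ℕ, ENNReal.ofReal (exp (M * w * (k + 1))) * μ {x | k * w ≤ Y x}
      ≤ ENNReal.ofReal (2 * C * (1 / 2) ^ k) := by
    intro k
    rw [← ofReal_measureReal, ← ENNReal.ofReal_mul (exp_pos _).le]
    refine ENNReal.ofReal_le_ofReal ((mul_le_mul_of_nonneg_left (h k) (exp_pos _).le).trans ?_)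
    have h3 : exp (-1) ≤ 1 / 2 := by
      rw [exp_neg, one_div]
      exact inv_anti₀ two_pos (by linarith [add_one_le_exp (1 : ℝ)])
    have h4 : exp (-(k : ℝ)) ≤ (1 / 2) ^ k := by
      rw [show -(k : ℝ) = k * (-1) by ring, exp_nat_mul]
      exact pow_le_pow_left₀ (exp_pos _).le h3 k
    have h5 : M * w * (k + 1) + -(κ * k) ^ 2 / 2
        ≤ M * w + (M * w + 1) ^ 2 / (2 * κ ^ 2) + -(k : ℝ) := by
      have e : (M * w + 1) ^ 2 / (2 * κ ^ 2) = ((M * w + 1) / κ) ^ 2 / 2 := by field_simp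
      have e2 : (M * w + 1) / κ * (κ * k) = (M * w + 1) * k := by field_simp
      rw [e]
      nlinarith [sq_nonneg ((M * w + 1) / κ - κ * k)]
    calc exp (M * w * (k + 1)) * (2 * exp (-(κ * k) ^ 2 / 2))
        = 2 * exp (M * w * (k + 1) + -(κ * k) ^ 2 / 2) := by rw [exp_add]; ring
      _ ≤ 2 * exp (M * w + (M * w + 1) ^ 2 / (2 * κ ^ 2) + -(k : ℝ)) := by gcongr
      _ = 2 * C * exp (-(k : ℝ)) := by rw [exp_add, mul_assoc]
      _ ≤ _ := by gcongr
  rw [← ENNReal.ofReal_le_ofReal_iff (by positivity),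
    ofReal_integral_eq_lintegral_ofReal hi (ae_of_all _ fun x => (exp_pos _).le)]
  refine (lintegral_mono h1).trans ?_
  rw [lintegral_add_left measurable_const, lintegral_tsum fun k =>
    (measurable_const.indicator (hs k)).aemeasurable, ENNReal.ofReal_add one_pos.le (by positivity)]
  refine add_le_add (by simp) ?_
  refine (ENNReal.tsum_le_tsum fun k => (lintegral_indicator_const_le _ _).trans (h2 k)).trans ?_
  rw [← ENNReal.ofReal_tsum_of_nonneg (fun k => by positivity)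
    (summable_geometric_two.mul_left _), tsum_mul_left, tsum_geometric_two]
  exact ENNReal.ofReal_le_ofReal (le_of_eq (by ring))

section

variable {I : Type} [Fintype I] {F : (I → ℝ) → ℝ} {L : ℝ}

lemma Anti_conc (hc : ConvexOn ℝ Set.univ F) (hL : 0 ≤ L)
    (hF : ∀ x y, |F x - F y| ≤ L * √(∑ i, (x i - y i) ^ 2)) :
    ConcaveOn ℝ Set.univ fun r => Pinv (∫ g, Ph (r - F g) ∂gm I) := by
  have hLs : ∀ r : ℝ, LipschitzWith ⟨L, hL⟩ fun x : EuclideanSpace ℝ I => r - F x.ofLp := fun r =>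
    LipschitzWith.of_dist_le_mul fun x y => by
      rw [dist_sub_left, Real.dist_eq, EuclideanSpace.dist_eq]
      simp only [Real.dist_eq, sq_abs]
      exact hF _ _
  have hG : ∀ r : ℝ, ∫ x, Ph (r - F x.ofLp) ∂stdGaussian (EuclideanSpace ℝ I)
      = Ph (Pinv (∫ g, Ph (r - F g) ∂gm I)) := fun r => by
    rw [← Ph_Pinv_integral _ ((conc_cont (F := F) hF).measurable.const_sub r),
      ← map_pi_eq_stdGaussian]
    exact integral_map (by fun_prop) (continuous_Ph.comp (hLs r).continuous).aestronglyMeasurable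
  refine ⟨convex_univ, fun s _ r _ a b ha hb hab => ?_⟩
  obtain rfl : b = 1 - a := by linarith
  refine ehrhard_std (hLs _) (hLs s) (hLs r) ha (by linarith) (fun x y => ?_) (hG _) (hG s) (hG r)
  have h := hc.2 (Set.mem_univ x.ofLp) (Set.mem_univ y.ofLp) ha hb hab
  simp only [smul_eq_mul, WithLp.ofLp_add, WithLp.ofLp_smul] at h ⊢
  linarith

lemma Anti_up (hm : Measurable F) (r : ℝ) :
    (gm I).real {g | F g ≤ r} ≤ 2 * ∫ g, Ph (r - F g) ∂gm I := by
  have hs : MeasurableSet {g | F g ≤ r} := measurableSet_le hm measurable_const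
  rw [← integral_indicator_one hs, ← integral_const_mul]
  refine integral_mono ((integrable_const 1).indicator hs)
    ((integrable_Ph_comp _ (measurable_const.sub hm)).const_mul 2) fun g => ?_
  by_cases h : F g ≤ r
  · have h1 := strictMono_Ph.monotone (sub_nonneg.2 h)
    rw [Ph_zero] at h1
    rw [Set.indicator_of_mem (show g ∈ {g | F g ≤ r} from h), Pi.one_apply]
    linarith
  · rw [Set.indicator_of_notMem (show g ∉ {g | F g ≤ r} from h)]
    exact mul_nonneg two_pos.le (Ph_nonneg _)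

lemma Anti_low (hm : Measurable F) (r l : ℝ) :
    ∫ g, Ph (r - l - F g) ∂gm I ≤ (gm I).real {g | F g ≤ r} + Ph (-l) := by
  have hs : MeasurableSet {g | F g ≤ r} := measurableSet_le hm measurable_const
  have h1 : ∫ g, Ph (r - l - F g) ∂gm I
      ≤ ∫ g, ({g | F g ≤ r}.indicator 1 g + Ph (-l)) ∂gm I := by
    refine integral_mono (integrable_Ph_comp _ (measurable_const.sub hm))
      (((integrable_const 1).indicator hs).add (integrable_const _)) fun g => ?_
    by_cases h : F g ≤ r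
    · rw [Set.indicator_of_mem (show g ∈ {g | F g ≤ r} from h), Pi.one_apply]
      linarith [Ph_le_one (r - l - F g), Ph_nonneg (-l)]
    · rw [Set.indicator_of_notMem (show g ∉ {g | F g ≤ r} from h), zero_add]
      exact strictMono_Ph.monotone (by linarith [not_le.1 h])
  rw [integral_add ((integrable_const 1).indicator hs) (integrable_const _),
    integral_indicator_one hs] at h1
  simpa using h1

lemma Anti_tail (hL1 : 1 ≤ L) (hF : ∀ x y, |F x - F y| ≤ L * √(∑ i, (x i - y i) ^ 2))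
    {s : ℝ} (hs : s ^ 2 = 1) (B : ℝ) :
    ∫ g, Ph (s * (F g - ∫ y, F y ∂gm I) - B * L) ∂gm I ≤ exp (2 - B) := by
  have hL : 0 < L := by linarith
  obtain ⟨h1, h2⟩ := mgf_le hL.le hF (s / L)
  have hm := (conc_cont (F := F) hF).measurable
  calc ∫ g, Ph (s * (F g - ∫ y, F y ∂gm I) - B * L) ∂gm I
      ≤ ∫ g, exp (1 - B) * exp (s / L * (F g - ∫ y, F y ∂gm I)) ∂gm I := by
        refine integral_mono (integrable_Ph_comp _ (by fun_prop)) (h1.const_mul _) fun g => ?_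
        refine (Anti_cher _ (inv_nonneg.2 hL.le)).trans ?_
        rw [← exp_add, exp_le_exp]
        have h3 : L⁻¹ ≤ 1 := inv_le_one_of_one_le₀ hL1
        have h4 : L⁻¹ ^ 2 ≤ 1 := pow_le_one₀ (inv_nonneg.2 hL.le) h3
        have e : L⁻¹ * (s * (F g - ∫ y, F y ∂gm I) - B * L)
            = s / L * (F g - ∫ y, F y ∂gm I) - B := by field_simp
        rw [e]
        linarith
    _ = exp (1 - B) * ∫ g, exp (s / L * (F g - ∫ y, F y ∂gm I)) ∂gm I := integral_const_mul _ _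
    _ ≤ exp (1 - B) * exp ((s / L) ^ 2 * L ^ 2) := mul_le_mul_of_nonneg_left h2 (exp_pos _).le
    _ = exp (2 - B) := by
        rw [← exp_add, div_pow, div_mul_cancel₀ _ (by positivity), hs]
        congr 1
        ring

end

lemma Anti_num {J κ l L M u B w q : ℝ} (hp : 0 < J) (hκ : 0 < κ) (hl0 : 0 ≤ l) (hL : 1 ≤ L)
    (hM : 1 ≤ M) (hu : 1 ≤ u) (hB0 : 0 ≤ B) (hw : w = u + l)
    (h10 : J * exp (M * q) ≤ 1 + 4 * exp (M * w + (M * w + 1) ^ 2 / (2 * κ ^ 2))) :
    q + w + B * L + M⁻¹ * log J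
      ≤ (B + (2 * (1 + l) + 4 + 2 * (1 + l) ^ 2 / κ ^ 2)) * (L + M * u ^ 2) := by
  have hM0 : 0 < M := by linarith
  have hw1 : 1 ≤ w := by linarith
  have hL0 : 0 ≤ L := by linarith
  obtain ⟨E, hE⟩ : ∃ E, E = M * w + (M * w + 1) ^ 2 / (2 * κ ^ 2) := ⟨_, rfl⟩
  rw [← hE] at h10
  have hMw : 1 ≤ M * w := one_le_mul_of_one_le_of_one_le hM hw1
  have hE0 : 0 ≤ E := by rw [hE]; positivity
  have h11 : log J + M * q ≤ 4 + E := by
    rw [← exp_le_exp, exp_add, exp_log hp, exp_add]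
    have h12 := add_one_le_exp (4 : ℝ)
    have h13 := one_le_exp hE0
    have h14 := mul_le_mul_of_nonneg_right h12 (exp_pos E).le
    linarith
  have h12 : E ≤ M * (w + 2 * (M * w ^ 2) / κ ^ 2) := by
    have h13 : (M * w + 1) ^ 2 / (2 * κ ^ 2) ≤ (2 * (M * w)) ^ 2 / (2 * κ ^ 2) := by
      gcongr
      linarith
    have e : M * (w + 2 * (M * w ^ 2) / κ ^ 2) = M * w + (2 * (M * w)) ^ 2 / (2 * κ ^ 2) := by
      field_simp
    rw [e, hE]
    linarith
  have h13 : M⁻¹ * log J ≤ 4 + w + 2 * (M * w ^ 2) / κ ^ 2 - q := by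
    rw [inv_mul_le_iff₀ hM0]
    have e : M * (4 + w + 2 * (M * w ^ 2) / κ ^ 2 - q)
        = 4 * M + M * (w + 2 * (M * w ^ 2) / κ ^ 2) - M * q := by ring
    rw [e]
    linarith
  have h14 : u ≤ M * u ^ 2 :=
    (le_self_pow₀ hu two_ne_zero).trans (le_mul_of_one_le_left (sq_nonneg u) hM)
  have h15 : w ≤ (1 + l) * u := by linarith [le_mul_of_one_le_right hl0 hu]
  have h16 : 2 * (M * w ^ 2) / κ ^ 2 ≤ 2 * (1 + l) ^ 2 / κ ^ 2 * (M * u ^ 2) := by
    calc 2 * (M * w ^ 2) / κ ^ 2 ≤ 2 * (M * ((1 + l) * u) ^ 2) / κ ^ 2 := by gcongr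
      _ = _ := by ring
  have h17 : w ≤ (1 + l) * (M * u ^ 2) :=
    h15.trans (mul_le_mul_of_nonneg_left h14 (by linarith))
  have h18 : 0 ≤ B * (M * u ^ 2) := by positivity
  have h19 : 0 ≤ (2 * (1 + l) + 4 + 2 * (1 + l) ^ 2 / κ ^ 2) * L := by positivity
  have e : (B + (2 * (1 + l) + 4 + 2 * (1 + l) ^ 2 / κ ^ 2)) * (L + M * u ^ 2)
      = B * L + B * (M * u ^ 2) + (2 * (1 + l) + 4 + 2 * (1 + l) ^ 2 / κ ^ 2) * L
        + 2 * ((1 + l) * (M * u ^ 2)) + 4 * (M * u ^ 2)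
        + 2 * (1 + l) ^ 2 / κ ^ 2 * (M * u ^ 2) := by ring
  rw [e]
  linarith

theorem anti {η : ℝ} (h0 : 0 < η) (h1 : η ≤ 1) : ∃ A : ℝ, 0 < A ∧ ∀ (I : Type) [Fintype I]
    (F : (I → ℝ) → ℝ) (L M u : ℝ), ConvexOn ℝ Set.univ F →
    (∀ x y, |F x - F y| ≤ L * √(∑ i, (x i - y i) ^ 2)) → 1 ≤ L → 1 ≤ M → 1 ≤ u →
    (∃ r, (gm I).real {g | F g ≤ r} ≤ η ∧ η / 8 ≤ (gm I).real {g | F g ≤ r - u}) ∨
      (∫ g, F g ∂gm I) + M⁻¹ * log (∫ g, exp (-M * F g) ∂gm I) ≤ A * (L + M * u ^ 2) := by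
  obtain ⟨l, hl0, hl⟩ := exists_tau (a := η / 8) (by linarith) (by linarith)
  obtain ⟨a, ha⟩ := exists_Ph_eq (a := η / 4) (by linarith) (by linarith)
  obtain ⟨b, hb⟩ := exists_Ph_eq (a := η / 2) (by linarith) (by linarith)
  have ha0 : a ≤ 0 := strictMono_Ph.le_iff_le.1 (by rw [ha, Ph_zero]; linarith)
  obtain ⟨κ, hκ, rfl⟩ : ∃ κ, 0 < κ ∧ b = a + κ :=
    ⟨b - a, sub_pos.2 (strictMono_Ph.lt_iff_lt.1 (by rw [ha, hb]; linarith)), by ring⟩
  obtain ⟨B, hB0, hB⟩ : ∃ B : ℝ, 0 ≤ B ∧ exp (2 - B) ≤ η / 2 := by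
    have h2 : log (η / 2) ≤ 0 := log_nonpos (by linarith) (by linarith)
    refine ⟨2 - log (η / 2), by linarith, ?_⟩
    rw [sub_sub_cancel, exp_log (by linarith)]
  refine ⟨B + (2 * (1 + l) + 4 + 2 * (1 + l) ^ 2 / κ ^ 2), by positivity,
    fun I _ F L M u hc hF hL hM hu => ?_⟩
  have hL0 : 0 ≤ L := by linarith
  have hm := (conc_cont (F := F) hF).measurable
  have hconc := Anti_conc hc hL0 hF
  set m := ∫ g, F g ∂gm I with hmd
  set τ : ℝ → ℝ := fun r => Pinv (∫ g, Ph (r - F g) ∂gm I) with hτ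
  have hG : ∀ r, ∫ g, Ph (r - F g) ∂gm I = Ph (τ r) := fun r =>
    Ph_Pinv_integral _ (hm.const_sub r)
  have h2 : τ (m - B * L) ≤ a + κ := by
    refine strictMono_Ph.le_iff_le.1 ?_
    rw [← hG, hb]
    refine le_trans (le_of_eq ?_) ((Anti_tail hL hF (s := -1) (by norm_num) B).trans hB)
    congr 1
    ext g
    congr 1
    ring
  have h3 : a + κ ≤ τ (m + B * L) := by
    refine strictMono_Ph.le_iff_le.1 ?_
    have h4 := (Anti_tail hL hF (s := 1) (by norm_num) B).trans hB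
    have e : (fun g => Ph (1 * (F g - m) - B * L)) = fun g => 1 - Ph (m + B * L - F g) := by
      ext g
      rw [← Ph_neg]
      congr 1
      ring
    rw [e, integral_sub (integrable_const _) (integrable_Ph_comp _ (hm.const_sub _)), hG] at h4
    simp only [integral_const, probReal_univ, smul_eq_mul, mul_one] at h4
    rw [hb]
    linarith
  have hBL : 0 ≤ B * L := mul_nonneg hB0 hL0
  obtain ⟨r, hr, hr'⟩ := intermediate_value_Icc (show m - B * L ≤ m + B * L by linarith)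
    ((hconc.continuousOn isOpen_univ).mono (Set.subset_univ _)) ⟨h2, h3⟩
  by_cases h5 : η / 4 ≤ ∫ g, Ph (r - u - l - F g) ∂gm I
  · refine Or.inl ⟨r, (Anti_up hm r).trans ?_, ?_⟩
    · rw [hG, hr', hb]
      linarith
    · linarith [Anti_low hm (r - u) l]
  right
  obtain ⟨w, hw⟩ : ∃ w, w = u + l := ⟨_, rfl⟩
  obtain ⟨q, hq⟩ : ∃ q, q = r - w := ⟨_, rfl⟩
  have hw1 : 1 ≤ w := by linarith
  have h6 : τ q ≤ a := by
    refine strictMono_Ph.le_iff_le.1 ?_
    rw [← hG, ha, show q = r - u - l by linarith]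
    exact (not_le.1 h5).le
  have h7 : ∀ k : ℕ, (gm I).real {g | k * w ≤ q - F g} ≤ 2 * exp (-(κ * k) ^ 2 / 2) := by
    intro k
    have hk : (0 : ℝ) ≤ k := Nat.cast_nonneg k
    have h8 := hconc.2 (Set.mem_univ (q - k * w)) (Set.mem_univ r)
      (show (0 : ℝ) ≤ 1 / (k + 1) by positivity) (show (0 : ℝ) ≤ k / (k + 1) by positivity)
      (by field_simp; ring)
    have e : (1 / (k + 1) : ℝ) • (q - k * w) + (k / (k + 1) : ℝ) • r = q := by
      rw [smul_eq_mul, smul_eq_mul, show r = q + w by linarith]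
      field_simp
      ring
    rw [e, hr', smul_eq_mul, smul_eq_mul, one_div_mul_eq_div, div_mul_eq_mul_div, ← add_div,
      div_le_iff₀ (by positivity)] at h8
    have h9 : τ (q - k * w) ≤ -(κ * k) := by
      nlinarith [mul_le_mul_of_nonneg_right h6 (show (0 : ℝ) ≤ k + 1 by positivity)]
    have e2 : {g | k * w ≤ q - F g} = {g | F g ≤ q - k * w} := by
      ext g
      simp only [Set.mem_ofPred_eq]
      constructor <;> intro h <;> linarith
    rw [e2]
    refine (Anti_up hm _).trans (mul_le_mul_of_nonneg_left ?_ two_pos.le)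
    rw [hG]
    refine (strictMono_Ph.monotone h9).trans
      ((Anti_cher _ (mul_nonneg hκ.le hk)).trans (le_of_eq ?_))
    congr 1
    ring
  have hM0 : 0 < M := by linarith
  have e3 : (fun g => exp (M * (q - F g))) = fun g => exp (-M * F g + M * q) := by
    ext g
    congr 1
    ring
  have h10 := Anti_mom (gm I) (hm.const_sub q) hM0.le (by linarith) hκ
    (by rw [e3]; exact conc_exp_int hL0 hF _ _) h7
  rw [e3] at h10
  simp only [exp_add (-M * _)] at h10
  rw [integral_mul_const] at h10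
  have hi : Integrable (fun g => exp (-M * F g)) (gm I) := by
    simpa using conc_exp_int hL0 hF (-M) 0
  have hp : 0 < ∫ g, exp (-M * F g) ∂gm I := integral_exp_pos hi
  have h11 := Anti_num hp hκ hl0 hL hM hu hB0 hw h10
  linarith [hr.1]

end

end Vale.Agent.P150S
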