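import Vale.Agent.P150S.Small
import Vale.Agent.P150S.Anti

/-! The dichotomy for the free energy of a Gaussian field. -/

namespace Vale.Agent.P150S

open MeasureTheory ProbabilityTheory Real Finset Vale.Agent.P150

noncomputable section

variable {I S : Type} [Fintype I] [Fintype S] [Nonempty S]

theorem Z_pos (e : I → S → ℝ) (g : I → ℝ) : 0 < Zw e 1 g :=
  sum_pos (fun _ _ => mul_pos one_pos (exp_pos _)) univ_nonempty

theorem logZ_convex (e : I → S → ℝ) : ConvexOn ℝ Set.univ fun g => log (Zw e 1 g) := by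
  refine ⟨convex_univ, fun g _ g' _ a b ha hb hab => ?_⟩
  have z := Z_pos e g
  have z' := Z_pos e g'
  simp only [smul_eq_mul]
  rw [log_le_iff_le_exp (Z_pos e _)]
  set c := a * log (Zw e 1 g) + b * log (Zw e 1 g') with hc
  have h1 : ∀ x, exp (Hf e (a • g + b • g') x) ≤ exp c * (a * (exp (Hf e g x) / Zw e 1 g) +
      b * (exp (Hf e g' x) / Zw e 1 g')) := fun x => by
    have h2 := convexOn_exp.2 (Set.mem_univ (Hf e g x - log (Zw e 1 g)))
      (Set.mem_univ (Hf e g' x - log (Zw e 1 g'))) ha hb hab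
    simp only [smul_eq_mul] at h2
    rw [exp_sub, exp_sub, exp_log z, exp_log z'] at h2
    refine le_trans (le_of_eq ?_) (mul_le_mul_of_nonneg_left h2 (exp_pos c).le)
    rw [← exp_add]
    congr 1
    have : Hf e (a • g + b • g') x = a * Hf e g x + b * Hf e g' x := by
      simp only [Hf, Pi.add_apply, Pi.smul_apply, smul_eq_mul, mul_sum, ← sum_add_distrib]
      exact sum_congr rfl fun i _ => by ring
    rw [this, hc]
    ring
  have h3 : ∀ g, ∑ x, exp (Hf e g x) = Zw e 1 g := fun g => by simp [Zw]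
  rw [← h3]
  refine (sum_le_sum fun x _ => h1 x).trans (le_of_eq ?_)
  rw [← mul_sum, sum_add_distrib, ← mul_sum, ← mul_sum, ← sum_div, ← sum_div, h3, h3,
    div_self z.ne', div_self z'.ne', mul_one, mul_one, hab, mul_one]

theorem logZ_lip (e : I → S → ℝ) {L : ℝ} (hL : 0 ≤ L) (h : ∀ x, cv e x x ≤ L ^ 2) (g g' : I → ℝ) :
    |log (Zw e 1 g) - log (Zw e 1 g')| ≤ L * √(∑ i, (g i - g' i) ^ 2) := by
  have h1 : ∀ g g' : I → ℝ, log (Zw e 1 g) - log (Zw e 1 g') ≤ L * √(∑ i, (g i - g' i) ^ 2) :=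
    fun g g' => by
      rw [sub_le_iff_le_add, log_le_iff_le_exp (Z_pos e _), exp_add, exp_log (Z_pos e _), Zw, Zw,
        mul_sum]
      refine sum_le_sum fun x _ => ?_
      rw [Pi.one_apply, one_mul, one_mul, ← exp_add, exp_le_exp, ← sub_le_iff_le_add, Hf, Hf,
        ← sum_sub_distrib]
      simp only [← sub_mul]
      refine (sum_mul_le_sqrt_mul_sqrt _ _ _).trans ?_
      rw [mul_comm]
      refine mul_le_mul_of_nonneg_right ((sqrt_le_left hL).2 (le_trans (le_of_eq ?_) (h x)))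
        (sqrt_nonneg _)
      simp only [cv, sq]
  refine abs_le.2 ⟨?_, h1 g g'⟩
  have h2 := h1 g' g
  simp only [← neg_sub (g _), neg_sq] at h2
  linarith

theorem dich {η κ C0 : ℝ} (h0 : 0 < η) (h1 : η ≤ 1) (hκ : 0 ≤ κ) : ∃ A : ℝ, 0 < A ∧
    ∀ (I S : Type) [Fintype I] [Fintype S] [Nonempty S] (e : I → S → ℝ) (O : S → S → Prop)
      [DecidableRel O], (∀ x y, 0 ≤ κ ^ 2 + cv e x y) → (∀ x y, O x y → κ ^ 2 + cv e x y ≤ C0) →
      ∀ L M K : ℝ, 1 ≤ K → 1 ≤ L → L ≤ M → (∀ x, cv e x x ≤ L ^ 2) →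
      (gm I).real {g | ∀ x, exp (-K) * Zw e 1 g ≤ Zw e (ind O x) g} ≤ 3 * η ∨
      (∫ g, log (Zw e 1 g) ∂gm I) + M⁻¹ * log (∫ g, exp (-M * log (Zw e 1 g)) ∂gm I) ≤
        M * (A * K ^ 2) := by
  obtain ⟨A, A0, hA⟩ := anti h0 h1
  obtain ⟨B, B1, hB⟩ := small_prob (C0 := C0) h0 h1 hκ
  refine ⟨2 * A * B ^ 2, by positivity, fun I S _ _ _ e O _ hc hO L M K hK hL hM hv => ?_⟩
  have u1 : 1 ≤ B * K := one_le_mul_of_one_le_of_one_le B1 hK
  rcases hA I _ L M (B * K) (logZ_convex e) (logZ_lip e (by linarith) hv) hL (hL.trans hM) u1 with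
    ⟨r, p1, p2⟩ | h
  · exact Or.inl (hB I S e O hc hO r K hK p1 p2)
  · refine Or.inr (h.trans ?_)
    have h2 : M ≤ M * (B * K) ^ 2 := le_mul_of_one_le_right (by linarith) (one_le_pow₀ u1)
    have h3 := mul_le_mul_of_nonneg_left (hM.trans h2) A0.le
    linarith

end

end Vale.Agent.P150S
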