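import Vale.Agent.P150S.Core
import Vale.Agent.P150S.Cvx
import Vale.Agent.P150S.Bot
import Vale.Agent.P150S.GapPos

/-! Stretched exponential slow mixing in the whole low temperature phase. -/

namespace Vale.Agent.P150S

open MeasureTheory ProbabilityTheory Real Finset Filter Topology Vale.Agent.P150

noncomputable section

/-- the couplings of the SK model -/
def eS (n : ℕ) (β : ℝ) (p : Pair n) (x : Conf n) : ℝ := √(β ^ 2 / n) * P146.xP x p

/-- nearly orthogonal configurations -/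
abbrev Orth (n : ℕ) (x y : Conf n) : Prop := |∑ i, sp (x i) * sp (y i)| ≤ 2

variable {n : ℕ} {β : ℝ}

theorem FF_eq (n : ℕ) (β : ℝ) (g : Pair n → ℝ) : P146.FF n β g = log (Zw (eS n β) 1 g) := by
  simp [P146.FG, P146.lse, Zw, Hf, eS, Finset.sum_apply]

theorem Hf_eq (hβ : 0 ≤ β) (g : Pair n → ℝ) (x : Conf n) : Hf (eS n β) g x = ham β g x := by
  rw [Hf, ham, mul_sum]
  refine sum_congr rfl fun p _ => ?_
  rw [eS, sqrt_div (sq_nonneg β), sqrt_sq hβ]
  simp only [P146.xP, P146.sg, P146M.xB, sp]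
  ring

theorem cv_eq (hn : 0 < n) (x y : Conf n) :
    cv (eS n β) x y = β ^ 2 * ((∑ i, sp (x i) * sp (y i)) ^ 2 / n - 1) / 2 := by
  have n0 : (0 : ℝ) < n := by exact_mod_cast hn
  have h1 : ∀ p, eS n β p x * eS n β p y = β ^ 2 / n * (P146.xP x p * P146.xP y p) := fun p => by
    rw [eS, eS, mul_mul_mul_comm, mul_self_sqrt (by positivity)]
  have h2 : P146.dot x y = ∑ i, sp (x i) * sp (y i) := rfl
  simp only [cv, h1, ← mul_sum]
  rw [P146.sum_xP, h2]
  field_simp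

theorem prob_le (hβ : 1 < β) {η : ℝ} (h0 : 0 < η) (h1 : η ≤ 1) : ∀ᶠ n : ℕ in atTop,
    (gm (Pair n)).real {g | ∀ x, exp (-(2 * (n : ℝ) ^ (1 / 70000 : ℝ))) * Zw (eS n β) 1 g ≤
      Zw (eS n β) (ind (Orth n) x) g} ≤ 3 * η := by
  have β0 : 0 < β := by linarith
  obtain ⟨c, c0, τ0, h⟩ := P146L.core_neg hβ
  obtain ⟨A, A0, hA⟩ := dich (κ := β) (C0 := 3 * β ^ 2) h0 h1 β0.le
  have e0 : ∀ a : ℝ, 0 < a → Tendsto (fun n : ℕ => (n : ℝ) ^ a) atTop atTop := fun a ha =>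
    (tendsto_rpow_atTop ha).comp tendsto_natCast_atTop_atTop
  have e1 := e0 (1 / 62181) (by norm_num)
  have e2 := e0 (1 / 62181 - 1 / 70000) (by norm_num)
  filter_upwards [e1.eventually_ge_atTop τ0, e1.eventually_ge_atTop (β + 1),
    e2.eventually_gt_atTop (16 * A / c), e2.eventually_ge_atTop 1,
    (e0 (1 / 70000) (by norm_num)).eventually_ge_atTop 1, eventually_gt_atTop 0]
    with n a1 a2 a3 a4 a5 hn
  have n0 : (0 : ℝ) < n := by exact_mod_cast hn
  have n1 : (1 : ℝ) ≤ n := by exact_mod_cast hn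
  have e3 : (n : ℝ) ^ (1 / 62181 : ℝ) =
      (n : ℝ) ^ (1 / 70000 : ℝ) * (n : ℝ) ^ (1 / 62181 - 1 / 70000 : ℝ) := by
    rw [← rpow_add n0, add_sub_cancel]
  set x := (n : ℝ) ^ (1 / 62181 : ℝ) with hx
  have x0 : 0 ≤ x := by linarith
  have t0 : ⌊x⌋₊ ^ 62181 ≤ n := by
    have h1 := pow_le_pow_left₀ (Nat.cast_nonneg _) (Nat.floor_le x0) 62181
    rw [show x ^ 62181 = n by
      rw [hx, one_div]
      exact_mod_cast rpow_inv_natCast_pow (Nat.cast_nonneg n) (by norm_num)] at h1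
    exact_mod_cast h1
  have t1 : β ≤ ⌊x⌋₊ := by linarith [Nat.lt_floor_add_one x]
  have t2 : x ≤ 2 * ⌊x⌋₊ := by linarith [Nat.lt_floor_add_one x]
  have h2 := h n ⌊x⌋₊ (Nat.le_floor a1) t0
  generalize ⌊x⌋₊ = τ at t0 t1 t2 h2
  generalize (n : ℝ) ^ (1 / 70000 : ℝ) = y at *
  generalize (n : ℝ) ^ (1 / 62181 - 1 / 70000 : ℝ) = w at *
  have t3 : (1 : ℝ) ≤ τ := by linarith
  have s1 : 1 ≤ √(n : ℝ) := one_le_sqrt.2 n1
  have s2 : β * √n ≤ (1 / (τ : ℝ)) ^ 441 * n := by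
    have b1 : ((τ : ℝ) ^ 442) ^ 2 ≤ n := by
      rw [← pow_mul]
      exact (pow_le_pow_right₀ t3 (by norm_num : 442 * 2 ≤ 62181)).trans (by exact_mod_cast t0)
    have b2 := le_sqrt_of_sq_le b1
    rw [one_div_pow, one_div_mul_eq_div, le_div_iff₀ (by positivity)]
    rw [pow_succ] at b2
    have b3 : 0 < (τ : ℝ) ^ 441 := by positivity
    generalize (τ : ℝ) ^ 441 = q at b2 b3
    have b4 := mul_le_mul_of_nonneg_right ((mul_le_mul_of_nonneg_left t1 b3.le).trans b2)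
      (sqrt_nonneg (n : ℝ))
    rw [mul_self_sqrt n0.le] at b4
    linarith
  rcases hA _ _ (eS n β) (Orth n) (fun x y => by
      rw [cv_eq hn]
      have : 0 ≤ β ^ 2 * ((∑ i, sp (x i) * sp (y i)) ^ 2 / n) := by positivity
      nlinarith [sq_nonneg β]) (fun x y hxy => by
      rw [cv_eq hn]
      have b1 : (∑ i, sp (x i) * sp (y i)) ^ 2 / n ≤ 4 := by
        rw [div_le_iff₀ n0]
        nlinarith [abs_le.1 hxy]
      nlinarith [mul_le_mul_of_nonneg_left b1 (sq_nonneg β)]) (β * √n) _ (2 * y) (by linarith)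
      (one_le_mul_of_one_le_of_one_le hβ.le s1) s2 (fun x => by
      rw [cv_eq hn, mul_pow, sq_sqrt n0.le]
      have b1 : (∑ i, sp (x i) * sp (x i)) ^ 2 / n ≤ n := by
        rw [div_le_iff₀ n0, ← sq, sq_le_sq, abs_of_pos n0]
        exact P146.abs_dot x x
      nlinarith [mul_le_mul_of_nonneg_left b1 (sq_nonneg β), sq_nonneg β]) with h3 | h3
  · exact h3
  exfalso
  simp only [← FF_eq] at h3
  have h4 := h2 (A * (2 * y) ^ 2) (by positivity) (h3.trans (mul_le_mul_of_nonneg_left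
    (le_add_of_nonneg_right (by positivity)) (by positivity)))
  rw [e3] at t2
  have h5 := mul_le_mul_of_nonneg_left (pow_le_pow_left₀ (by positivity) t2 2) c0.le
  rw [div_lt_iff₀ c0] at a3
  have h6 : w * c ≤ c * w ^ 2 := by nlinarith [mul_le_mul_of_nonneg_left a4 (c0.le)]
  have h7 := mul_lt_mul_of_pos_left (a3.trans_le h6) (by positivity : 0 < y ^ 2)
  nlinarith

theorem slow (β : ℝ) (hβ : 1 < β) : Tendsto (fun n : ℕ => disorder n {g : Pair n → ℝ |
    ¬ (exp ((n : ℝ) ^ (1 / 70000 : ℝ)) ≤ tmix β g ∧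
      (∀ t, 0 ≤ t → t ≤ exp ((n : ℝ) ^ (1 / 70000 : ℝ)) → ∃ x, 1 / 4 < tv β g t x) ∧
      0 < gap β g ∧ exp ((n : ℝ) ^ (1 / 70000 : ℝ)) ≤ 1 / gap β g)}) atTop (𝓝 0) := by
  have e1 : Tendsto (fun n : ℕ => (n : ℝ) ^ (1 / 70000 : ℝ)) atTop atTop :=
    (tendsto_rpow_atTop (by norm_num)).comp tendsto_natCast_atTop_atTop
  have e2 := ((tendsto_pow_mul_exp_neg_atTop_nhds_zero 70000).comp e1).eventually_le_const
    (by norm_num : (0 : ℝ) < 1 / 8)
  have e3 : Tendsto (fun n : ℕ => (gm (Pair n)).real {g | ∀ x,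
      exp (-(2 * (n : ℝ) ^ (1 / 70000 : ℝ))) * Zw (eS n β) 1 g ≤ Zw (eS n β) (ind (Orth n) x) g})
      atTop (𝓝 0) := by
    refine tendsto_order.2 ⟨fun a ha => Eventually.of_forall fun n => ha.trans_le measureReal_nonneg,
      fun a ha => ?_⟩
    filter_upwards [prob_le hβ (η := min 1 (a / 4)) (by positivity) (min_le_left _ _)] with n hn
    linarith [min_le_right 1 (a / 4)]
  have e4 := ENNReal.tendsto_ofReal e3
  rw [ENNReal.ofReal_zero] at e4
  refine tendsto_of_tendsto_of_tendsto_of_le_of_le' tendsto_const_nhds e4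
    (Eventually.of_forall fun _ => zero_le) ?_
  filter_upwards [e2, eventually_gt_atTop 0] with n a1 hn
  have n1 : (1 : ℝ) ≤ n := by exact_mod_cast hn
  rw [ofReal_measureReal]
  refine measure_mono fun g hg x => le_of_not_gt fun hx => hg ?_
  have a2 : ((n : ℝ) ^ (1 / 70000 : ℝ)) ^ 70000 = n := by
    rw [one_div]
    exact_mod_cast rpow_inv_natCast_pow (Nat.cast_nonneg n) (by norm_num)
  simp only [Function.comp_apply, a2] at a1
  generalize (n : ℝ) ^ (1 / 70000 : ℝ) = y at *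
  have a3 : exp (-(2 * y)) = exp (-y) * exp (-y) := by rw [← exp_add]; congr 1; ring
  have a4 := exp_pos (-y)
  have a5 : exp (-y) ≤ 1 / 8 := by nlinarith
  have a6 : 8 * n * exp (-(2 * y)) ≤ exp (-y) := by rw [a3]; nlinarith
  have a7 : exp y ≤ 1 / (8 * n * exp (-(2 * y))) := by
    rw [le_one_div (exp_pos _) (by positivity), one_div, ← exp_neg]
    exact a6
  obtain ⟨b1, b2, b3⟩ := bottleneck hn β g x (exp_pos (-(2 * y))) (by rw [a3]; nlinarith) (by
    have z := Z_pos (eS n β) g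
    refine le_trans (le_of_eq ?_) ((div_le_iff₀ z).2 hx.le)
    simp only [Zw, sum_div, Hf_eq (by linarith : 0 ≤ β), Pi.one_apply, one_mul, ind, gibbs]
    refine sum_congr rfl fun y _ => ?_
    split_ifs <;> simp)
  have b4 := gap_pos hn β g
  exact ⟨a7.trans b3, fun t h0 ht => b2 t h0 (ht.trans a7), b4,
    a7.trans (one_div_le_one_div_of_le b4 b1)⟩

end

end Vale.Agent.P150S
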